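import Crest.Agent.N250.Ch.Op
import Crest.Agent.N250.Wr.Z

/-!
# Row 250 (helper49): the zones of the lift on the tubes of a shrinker
-/

set_option autoImplicit false
open Set Filter Topology
open scoped ContDiff
open Crest.GeometryTopology.MCF

noncomputable section

namespace Crest.Agent.N250.EC

open WS Po Wr

variable {S : Mv} (P : Prm S) (j : Fin P.e.p)

/-- the closed part `a ≤ ξ` of the tube `j` -/
def Kh (a : ℝ) : Set (S.sl 0) := {p | a ≤ xi P.e j p ∧ r2 P.e j p ≤ 9}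

/-- the compact part `a ≤ ξ ≤ b` of the tube `j` -/
def Kc (a b : ℝ) : Set (S.sl 0) := {p | p ∈ Kh P j a ∧ xi P.e j p ≤ b}

variable {P j} {a a' b b' : ℝ} {p : S.sl 0}

theorem cr_fst (p : S.sl 0) : (cr P.geo (P.e.Q j) p).1 = xi P.e j p := (xi_eq j _).symm

theorem cont_xi : Continuous fun p : S.sl 0 => xi P.e j p :=
  (contDiff_xi j).continuous.comp continuous_subtype_val

theorem closed_Kh : IsClosed (Kh P j a) :=
  (isClosed_le continuous_const cont_xi).inter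
    (isClosed_le ((contDiff_r2 j).continuous.comp continuous_subtype_val) continuous_const)

theorem closed_Kc : IsClosed (Kc P j a b) := closed_Kh.inter (isClosed_le cont_xi continuous_const)

theorem Kh_tube (ha : P.e.R < a) (hp : p ∈ Kh P j a) : ((p : E), (0 : ℝ)) ∈ tube P.e j P.e.R :=
  (tube_or_off P.shr.st ha (p := (p, 0)) p.2 j).resolve_right fun h =>
    h.elim (fun h => not_lt.2 hp.1 h) fun h => not_lt.2 hp.2 h

theorem Kh_tube' (ha : P.e.R < a) (h : a' < a) (hp : p ∈ Kh P j a) :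
    ((p : E), (0 : ℝ)) ∈ tube P.e j a' := ⟨h.trans_le hp.1, (Kh_tube ha hp).2⟩


theorem Kh_off (ha : P.e.R < a) (hp : p ∈ Kh P j a) : zc (P.e.Q j) (P.geo.M.x p) ≠ 0 := by
  have ht := Kh_tube ha hp
  obtain ⟨θ, h⟩ := exists_pol P.shr.st (p := (p, 0)) p.2 (tube_cone ht) ht.1
  have h1 := (P.e.near j (xi P.e j p, θ) ht.1).1
  rw [← norm_ne_zero_iff, P.geo_x]
  change ‖zc (P.e.Q j) ((p : E), (0 : ℝ)).1‖ ≠ 0
  rw [h, norm_zc_cyl]
  exact (abs_pos.2 (one_pos.trans h1).ne').ne'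

theorem compact_Kc : IsCompact (Kc P j a b) := by
  refine (compact_sl P.shr.closed ((|a| + |b|) ^ 2 + 9)).of_isClosed_subset closed_Kc
    fun p hp => ?_
  have h1 : ‖(p : E)‖ ^ 2 - xi P.e j p ^ 2 ≤ 9 := hp.1.2
  have h2 : |xi P.e j p| ≤ |a| + |b| :=
    abs_le.2 ⟨by linarith [hp.1.1, neg_abs_le a, abs_nonneg b],
      by linarith [hp.2, le_abs_self b, abs_nonneg a]⟩
  have h3 := pow_le_pow_left₀ (abs_nonneg _) h2 2
  rw [sq_abs] at h3
  change ‖(p : E)‖ ^ 2 ≤ _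
  linarith

theorem zn_Kh (ha : P.e.R < a) {I : Set ℝ} (hI : IsOpen I) (h : Ici a ⊆ I) :
    Zn P.geo (P.e.Q j) I (Kh P j a) :=
  ⟨hI, closed_Kh, fun _ => Kh_off ha, fun p hp => h (by rw [cr_fst]; exact hp.1)⟩

theorem zn_Kc (ha : P.e.R < a) {I : Set ℝ} (hI : IsOpen I) (h : Icc a b ⊆ I) :
    Zn P.geo (P.e.Q j) I (Kc P j a b) :=
  ⟨hI, closed_Kc, fun _ hp => Kh_off ha hp.1, fun p hp => h (by rw [cr_fst]; exact ⟨hp.1.1, hp.2⟩)⟩

theorem chiR_zero (h : a < a') (hp : p ∉ Kh P j a) : (P.chiR j a a').1 p = 0 :=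
  chi_zero (p := (p, 0)) h (by
    simp only [Kh, mem_ofPred_eq, not_and_or, not_le] at hp
    exact hp)

theorem chiR_val (ha : P.e.R < a) (hp : p ∈ Kh P j a) (s t : ℝ) :
    (P.chiR j s t).1 p = st s t (xi P.e j p) := chi_tube (Kh_tube ha hp)

theorem sp_chiR (h : a < a') : Sp (Kh P j a) (P.geo.oR (P.chiR j a a')) :=
  sp_oR fun _ => chiR_zero h

/-- the bump `0 | 1` at `a | a'`, `1 | 0` at `b' | b` -/
theorem sp_bump (ha : P.e.R < a) (h : a < a') (h' : b' < b) :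
    Sp (Kc P j a b) (P.geo.oR (P.chiR j a a' * (1 - P.chiR j b' b))) := sp_oR fun p hp => by
  change (P.chiR j a a').1 p * (1 - (P.chiR j b' b).1 p) = 0
  by_cases h1 : p ∈ Kh P j a
  · rw [chiR_val ha h1 b' b, st_one h' (not_le.1 fun h2 => hp ⟨h1, h2⟩).le, sub_self, mul_zero]
  · rw [chiR_zero h h1, zero_mul]


end Crest.Agent.N250.EC

end
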