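import Crest.Agent.N250.Wt.Td
import Crest.Agent.N250.Wt.Cx
import Crest.Agent.N250.Po.Area
import Crest.Agent.N222.F.Bump

/-!
# Row 250 (helper49): lifting functions of `(x, θ)` to the shrinker
-/

set_option autoImplicit false
open Set Filter Topology
open scoped ContDiff NNReal ENNReal ComplexConjugate

noncomputable section

namespace Crest.Agent.N250.EC

open Crest.Agent.N222 hiding E ee
open Crest.GeometryTopology.MCF (E)
open WS Po

/-! ### strip functions -/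

/-- smooth periodic functions on a strip -/
structure Ok (I : Set ℝ) (g : ℝ × ℝ → ℂ) : Prop where
  sm : ContDiffOn ℝ ∞ g (I ×ˢ univ)
  per : Per g

/-- a jet of a strip function -/
def jt (j : ℕ) (m : Fin j → ℝ × ℝ) (g : ℝ × ℝ → ℂ) (y : ℝ × ℝ) : ℂ := iteratedFDeriv ℝ j g y m


namespace Ok

variable {I : Set ℝ} {g g' : ℝ × ℝ → ℂ}

theorem cdAt (h : Ok I g) (hI : IsOpen I) {y : ℝ × ℝ} (hy : y.1 ∈ I) : ContDiffAt ℝ ∞ g y :=
  h.sm.contDiffAt ((hI.prod isOpen_univ).mem_nhds ⟨hy, trivial⟩)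

theorem cdAt' (h : Ok I g) (hI : IsOpen I) {y : ℝ × ℝ} (hy : y.1 ∈ I) (j : ℕ) :
    ContDiffAt ℝ j g y := (h.cdAt hI hy).of_le (by exact_mod_cast le_top)

theorem mono (h : Ok I g) {J : Set ℝ} (hJ : J ⊆ I) : Ok J g :=
  ⟨h.sm.mono (prod_mono hJ subset_rfl), h.per⟩

theorem of_cd (h : ContDiff ℝ ∞ g) (hp : Per g) : Ok I g := ⟨h.contDiffOn, hp⟩

theorem const (c : ℂ) : Ok I fun _ => c := ⟨contDiffOn_const, fun _ _ => rfl⟩

theorem add (h : Ok I g) (h' : Ok I g') : Ok I fun y => g y + g' y :=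
  ⟨h.sm.add h'.sm, fun s θ => by simp only [h.per s θ, h'.per s θ]⟩

theorem sub (h : Ok I g) (h' : Ok I g') : Ok I fun y => g y - g' y :=
  ⟨h.sm.sub h'.sm, fun s θ => by simp only [h.per s θ, h'.per s θ]⟩

theorem mul (h : Ok I g) (h' : Ok I g') : Ok I fun y => g y * g' y :=
  ⟨h.sm.mul h'.sm, fun s θ => by simp only [h.per s θ, h'.per s θ]⟩

theorem cj (h : Ok I g) : Ok I fun y => conj (g y) :=
  ⟨Complex.conjCLE.contDiff.comp_contDiffOn h.sm, fun s θ => by simp only [h.per s θ]⟩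

theorem jt (h : Ok I g) (hI : IsOpen I) (j : ℕ) (m : Fin j → ℝ × ℝ) : Ok I (jt j m g) := by
  refine ⟨fun y hy => ?_, fun s θ => ?_⟩
  · have h1 : ContDiffAt ℝ ∞ (iteratedFDeriv ℝ j g) y :=
      (h.cdAt hI hy.1).iteratedFDeriv_right (by exact_mod_cast le_top)
    exact ((ContinuousMultilinearMap.apply ℝ (fun _ : Fin j => ℝ × ℝ) ℂ m).contDiff.contDiffAt.comp
      y h1).contDiffWithinAt
  · have e : g = fun z => g (z + (0, 2 * Real.pi)) :=
      funext fun z => by rw [← h.per z.1 z.2]; congr 1; ext <;> simp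
    have := iteratedFDeriv_comp_add_right (𝕜 := ℝ) (f := g) j (0, 2 * Real.pi) (s, θ)
    rw [← e] at this
    rw [EC.jt, EC.jt, this]
    simp

theorem fderiv_jt (h : Ok I g) (hI : IsOpen I) (j : ℕ) (m : Fin j → ℝ × ℝ) {y : ℝ × ℝ}
    (hy : y.1 ∈ I) (v : ℝ × ℝ) :
    fderiv ℝ (EC.jt j m g) y v = EC.jt (j + 1) (Fin.cons v m) g y := by
  have h1 : ContDiffAt ℝ ∞ (iteratedFDeriv ℝ j g) y :=
    (h.cdAt hI hy).iteratedFDeriv_right (by exact_mod_cast le_top)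
  rw [EC.jt, iteratedFDeriv_succ_apply_left, Fin.cons_zero, Fin.tail_cons]
  exact fderiv_continuousMultilinear_apply_const_apply (h1.differentiableAt (by simp)) m v

end Ok

/-- the axial coordinate -/
def g1 (q : ℝ × ℝ) : ℂ := q.1

/-- `exp (i θ)` -/
def g2 (q : ℝ × ℝ) : ℂ := Complex.exp (q.2 * Complex.I)

theorem hasF_g1 (q : ℝ × ℝ) :
    HasFDerivAt g1 (Complex.ofRealCLM ∘L ContinuousLinearMap.fst ℝ ℝ ℝ) q :=
  (Complex.ofRealCLM ∘L ContinuousLinearMap.fst ℝ ℝ ℝ).hasFDerivAt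

theorem fderiv_g1 (q w : ℝ × ℝ) : fderiv ℝ g1 q w = w.1 := by rw [(hasF_g1 q).fderiv]; rfl

theorem fderiv_g2 (q w : ℝ × ℝ) : fderiv ℝ g2 q w = g2 q * (w.2 * Complex.I) := by
  have h : HasFDerivAt g2 _ q :=
    ((Complex.ofRealCLM ∘L ContinuousLinearMap.snd ℝ ℝ ℝ).hasFDerivAt.mul_const Complex.I).cexp
  rw [h.fderiv]
  simp [g2, mul_comm]

theorem ok_g1 {I : Set ℝ} : Ok I g1 :=
  .of_cd (Complex.ofRealCLM ∘L ContinuousLinearMap.fst ℝ ℝ ℝ).contDiff fun _ _ => rfl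

theorem ok_g2 {I : Set ℝ} : Ok I g2 := by
  refine .of_cd (((Complex.ofRealCLM ∘L ContinuousLinearMap.snd ℝ ℝ ℝ).contDiff.mul
    contDiff_const).cexp) fun s θ => ?_
  simp only [g2]
  push_cast
  rw [add_mul, Complex.exp_add, Complex.exp_two_pi_mul_I, mul_one]

theorem g2_cj (q : ℝ × ℝ) : g2 q * conj (g2 q) = 1 := by
  rw [Complex.mul_conj, Complex.normSq_eq_norm_sq, g2, Complex.norm_exp_ofReal_mul_I]; simp

theorem fderiv_split (g : ℝ × ℝ → ℂ) (q w : ℝ × ℝ) :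
    fderiv ℝ g q w = w.1 * fderiv ℝ g q (1, 0) + w.2 * fderiv ℝ g q (0, 1) := by
  have : w = w.1 • ((1, 0) : ℝ × ℝ) + w.2 • ((0, 1) : ℝ × ℝ) := by ext <;> simp
  conv_lhs => rw [this, map_add, map_smul, map_smul]
  rfl

/-! ### the lift -/

variable {X : Type} [TopologicalSpace X] [MeasurableSpace X]

/-- `(x, θ)` on the surface -/
def cr (G : Geo X) (Q : E ≃ₗᵢ[ℝ] E) (p : X) : ℝ × ℝ := crd Q (G.M.x p)

open Classical in
/-- `p ↦ c p * g (x p, θ p)` -/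
def lift (G : Geo X) (Q : E ≃ₗᵢ[ℝ] E) (c : G.SmC) (g : ℝ × ℝ → ℂ) : G.SmC :=
  if h : G.M.Sm fun p => c.1 p * g (cr G Q p) then ⟨_, h⟩ else 0

/-- a closed set off the axis which lies over the open set `I` -/
structure Zn (G : Geo X) (Q : E ≃ₗᵢ[ℝ] E) (I : Set ℝ) (K : Set X) : Prop where
  opn : IsOpen I
  cl : IsClosed K
  off : ∀ p ∈ K, zc Q (G.M.x p) ≠ 0
  mem : ∀ p ∈ K, (cr G Q p).1 ∈ I

variable {G : Geo X}

/-- vanishing off `K` -/
def Sp (K : Set X) (c : G.SmC) : Prop := ∀ p ∉ K, c.1 p = 0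

variable {Q : E ≃ₗᵢ[ℝ] E} {I : Set ℝ} {K : Set X} {c c' : G.SmC} {g g' : ℝ × ℝ → ℂ}


theorem sp_oR {s : G.R} (h : ∀ p ∉ K, s.1 p = 0) : Sp K (G.oR s) :=
  fun p hp => by change ((s.1 p : ℝ) : ℂ) = 0; rw [h p hp, Complex.ofReal_zero]

theorem Sp.mono (h : Sp K c) {K' : Set X} (hK : K ⊆ K') : Sp K' c := fun p hp => h p fun h' => hp (hK h')

theorem Sp.ev (h : Sp K c) (hK : IsClosed K) {p : X} (hp : p ∉ K) : c.1 =ᶠ[𝓝 p] fun _ => 0 :=
  (hK.isOpen_compl.eventually_mem hp).mono h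

theorem Sp.tsupp (h : Sp K c) (hK : IsClosed K) : tsupport c.1 ⊆ K :=
  closure_minimal (fun p hp => by_contra fun h' => hp (h p h')) hK

theorem sp_zero : Sp K (0 : G.SmC) := fun _ _ => rfl

theorem Sp.add (h : Sp K c) (h' : Sp K c') : Sp K (c + c') := fun p hp => by
  change c.1 p + c'.1 p = 0; rw [h p hp, h' p hp, add_zero]

theorem Sp.sub (h : Sp K c) (h' : Sp K c') : Sp K (c - c') := fun p hp => by
  change c.1 p - c'.1 p = 0; rw [h p hp, h' p hp, sub_zero]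

theorem Sp.mul_left (h : Sp K c) (u : G.SmC) : Sp K (u * c) := fun p hp => by
  change u.1 p * c.1 p = 0; rw [h p hp, mul_zero]

theorem Sp.mul_right (h : Sp K c) (u : G.SmC) : Sp K (c * u) := mul_comm u c ▸ h.mul_left u

theorem Sp.D (h : Sp K c) (hK : IsClosed K) (a : Fin 3) : Sp K (G.SC.D a c) := fun p hp => by
  rw [G.SC_D_td, Imm.td_congr (h.ev hK hp), Imm.td_const]; rfl

theorem Sp.lift (h : Sp K c) (g : ℝ × ℝ → ℂ) : Sp K (lift G Q c g) := fun p hp => by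
  unfold EC.lift
  split_ifs
  · change c.1 p * _ = 0; rw [h p hp, zero_mul]
  · rfl

namespace Zn

variable (Z : Zn G Q I K)
include Z

theorem mono {K' : Set X} (hK : K' ⊆ K) (hc : IsClosed K') : Zn G Q I K' :=
  ⟨Z.opn, hc, fun p hp => Z.off p (hK hp), fun p hp => Z.mem p (hK hp)⟩

theorem smOn (hg : Ok I g) : G.M.SmOn K fun p => g (cr G Q p) :=
  (G.M.sm_x.smOn K).comp (g := fun y => g (crd Q y)) fun p hp =>
    hg.per.contDiffAt (Z.off p hp) (hg.cdAt Z.opn (Z.mem p hp))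

theorem sm (hc : Sp K c) (hg : Ok I g) : G.M.Sm fun p => c.1 p * g (cr G Q p) := by
  have h1 : G.M.SmOn K fun p => c.1 p * g (cr G Q p) := fun p hp =>
    (Imm.Sm.smOn (M := G.M) c.2 K p hp).mul (Z.smOn hg p hp)
  exact h1.sm_of_tsupport (tsupport_mul_subset_left.trans (hc.tsupp Z.cl))

theorem lift_val (hc : Sp K c) (hg : Ok I g) :
    (lift G Q c g).1 = fun p => c.1 p * g (cr G Q p) := by
  rw [lift, dif_pos (Z.sm hc hg)]

theorem lift_apply (hc : Sp K c) (hg : Ok I g) (p : X) :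
    (lift G Q c g).1 p = c.1 p * g (cr G Q p) := by rw [Z.lift_val hc hg]

theorem lift_congr (hc : Sp K c) (hg : Ok I g) (hg' : Ok I g') (h : ∀ y, y.1 ∈ I → g y = g' y) :
    lift G Q c g = lift G Q c g' := G.extC fun p => by
  rw [Z.lift_apply hc hg, Z.lift_apply hc hg']
  by_cases hp : p ∈ K
  · rw [h _ (Z.mem p hp)]
  · rw [hc p hp, zero_mul, zero_mul]

theorem lift_add (hc : Sp K c) (hg : Ok I g) (hg' : Ok I g') :
    lift G Q c (fun y => g y + g' y) = lift G Q c g + lift G Q c g' := G.extC fun p => by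
  change _ = (lift G Q c g).1 p + (lift G Q c g').1 p
  rw [Z.lift_apply hc hg, Z.lift_apply hc hg', Z.lift_apply hc (hg.add hg'), mul_add]


theorem lift_smul (hc : Sp K c) (hg : Ok I g) (a : ℂ) :
    lift G Q c (fun y => a * g y) = a • lift G Q c g := G.extC fun p => by
  change _ = a * (lift G Q c g).1 p
  rw [Z.lift_apply hc hg, Z.lift_apply hc ((Ok.const a).mul hg), mul_left_comm]


theorem mul_lift (hc : Sp K c) (hg : Ok I g) (u : G.SmC) :
    u * lift G Q c g = lift G Q (u * c) g := G.extC fun p => by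
  change u.1 p * (lift G Q c g).1 p = _
  rw [Z.lift_apply hc hg, Z.lift_apply (hc.mul_left u) hg, ← mul_assoc]; rfl


theorem lift_lift (hc : Sp K c) (hg : Ok I g) (hg' : Ok I g') :
    lift G Q (lift G Q c g) g' = lift G Q c fun y => g y * g' y := G.extC fun p => by
  rw [Z.lift_apply (hc.lift g) hg', Z.lift_apply hc hg, Z.lift_apply hc (hg.mul hg'), mul_assoc]


/-- the lift in polar coordinates -/
theorem lift_pX (hc : Sp K c) (hg : Ok I g) {r : ℝ × ℝ → ℝ} {q : ℝ × ℝ} (hr : 0 < r q) {p : X}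
    (hp : G.M.x p = pX Q r q) : (lift G Q c g).1 p = c.1 p * g q := by
  rw [Z.lift_apply hc hg, cr, hp, hg.per.crd_pX hr]

/-- chain rule -/
theorem chain (a : Fin 3) (p : X) : ∃ w : ℝ × ℝ, ∀ c : G.SmC, Sp K c → ∀ g, Ok I g →
    (G.SC.D a (lift G Q c g)).1 p =
      (G.SC.D a c).1 p * g (cr G Q p) + c.1 p * fderiv ℝ g (cr G Q p) w := by
  by_cases hp : p ∈ K
  swap
  · exact ⟨0, fun c hc g hg => by
      rw [(hc.lift g).D Z.cl a p hp, hc.D Z.cl a p hp, hc p hp]; simp⟩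
  obtain ⟨b, h1, h2, h3⟩ := exists_branch (Z.off p hp)
  have hb := (h1 1).differentiableAt one_ne_zero
  have hx := G.M.sm_x.diffAt p
  refine ⟨G.M.td (fun q => b (G.M.x q)) p (N222.ee a), fun c hc g hg => ?_⟩
  have hgd : DifferentiableAt ℝ g (b (G.M.x p)) := by
    rw [h2]; exact (hg.cdAt Z.opn (Z.mem p hp)).differentiableAt (by simp)
  have e : (lift G Q c g).1 =ᶠ[𝓝 p] fun q =>
      (fun z : ℂ × ℂ => z.1 * z.2) (c.1 q, g (b (G.M.x q))) := by
    filter_upwards [G.M.continuous_x.continuousAt.eventually h3] with q hq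
    have := hg.per.angle (crd Q (G.M.x q)).1 hq.2
    rw [Z.lift_apply hc hg, cr]
    change _ * g ((crd Q (G.M.x q)).1, (crd Q (G.M.x q)).2) = _ * g ((b (G.M.x q)).1, (b (G.M.x q)).2)
    rw [← this, hq.1]
  have hc1 := Imm.Sm.diffAt (M := G.M) c.2 p
  have hg1 := (hx.comp hb).comp hgd
  have hm : HasFDerivAt (fun z : ℂ × ℂ => z.1 * z.2) _ (c.1 p, g (b (G.M.x p))) :=
    (hasFDerivAt_fst (𝕜 := ℝ)).mul hasFDerivAt_snd
  rw [G.SC_D_td, G.SC_D_td, Imm.td_congr e, Imm.td_comp (hc1.prodMk hg1) hm.differentiableAt,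
    hm.fderiv, Imm.td_prodMk hc1 hg1, Imm.td_comp (hx.comp hb) hgd, h2, cr]
  simp [mul_comm, add_comm]

end Zn

variable (Q) in
/-- coefficient of `∂ₓ g` in `D a (lift c g)` -/
def cX (a : Fin 3) (c : G.SmC) : G.SmC := G.SC.D a (lift G Q c g1) - lift G Q (G.SC.D a c) g1

variable (Q) in
/-- coefficient of `∂_θ g` in `D a (lift c g)` -/
def cT (a : Fin 3) (c : G.SmC) : G.SmC :=
  lift G Q (G.SC.D a (lift G Q c g2) - lift G Q (G.SC.D a c) g2) fun y => -Complex.I * conj (g2 y)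

theorem Sp.cX (h : Sp K c) (hK : IsClosed K) (a : Fin 3) : Sp K (cX Q a c) :=
  ((h.lift _).D hK a).sub ((h.D hK a).lift _)

theorem Sp.cT (h : Sp K c) (hK : IsClosed K) (a : Fin 3) : Sp K (cT Q a c) :=
  (((h.lift _).D hK a).sub ((h.D hK a).lift _)).lift _

/-- chain rule with smooth coefficients, pointwise -/
theorem Zn.D_lift_apply (Z : Zn G Q I K) (hc : Sp K c) (hg : Ok I g) (a : Fin 3) (p : X) :
    (G.SC.D a (lift G Q c g)).1 p = (G.SC.D a c).1 p * g (cr G Q p) +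
      (cX Q a c).1 p * fderiv ℝ g (cr G Q p) (1, 0) + (cT Q a c).1 p * fderiv ℝ g (cr G Q p) (0, 1) := by
  obtain ⟨w, hw⟩ := Z.chain a p
  have hD := hc.D Z.cl a
  have e1 : (cX Q a c).1 p = c.1 p * w.1 := by
    change (G.SC.D a (lift G Q c g1)).1 p - (lift G Q (G.SC.D a c) g1).1 p = _
    rw [hw c hc _ ok_g1, Z.lift_apply hD ok_g1, fderiv_g1]; ring
  have e2 : (cT Q a c).1 p = c.1 p * w.2 := by
    rw [cT, Z.lift_apply (((hc.lift _).D Z.cl a).sub (hD.lift _)) ((Ok.const _).mul ok_g2.cj)]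
    change ((G.SC.D a (lift G Q c g2)).1 p - (lift G Q (G.SC.D a c) g2).1 p) * _ = _
    rw [hw c hc _ ok_g2, Z.lift_apply hD ok_g2, fderiv_g2]
    linear_combination (c.1 p * w.2) * g2_cj (cr G Q p) -
      (c.1 p * w.2 * g2 (cr G Q p) * conj (g2 (cr G Q p))) * Complex.I_mul_I
  rw [hw c hc g hg, e1, e2, fderiv_split g _ w]; ring

theorem Zn.D_lift (Z : Zn G Q I K) (hc : Sp K c) (hg : Ok I g) (a : Fin 3) (j : ℕ)
    (m : Fin j → ℝ × ℝ) : G.SC.D a (lift G Q c (jt j m g)) = lift G Q (G.SC.D a c) (jt j m g) +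
      lift G Q (cX Q a c) (jt (j + 1) (Fin.cons (1, 0) m) g) +
      lift G Q (cT Q a c) (jt (j + 1) (Fin.cons (0, 1) m) g) := G.extC fun p => by
  change _ = (lift G Q _ _).1 p + (lift G Q _ _).1 p + (lift G Q _ _).1 p
  rw [Z.D_lift_apply hc (hg.jt Z.opn j m), Z.lift_apply (hc.D Z.cl a) (hg.jt Z.opn j m),
    Z.lift_apply (hc.cX Z.cl a) (hg.jt Z.opn _ _), Z.lift_apply (hc.cT Z.cl a) (hg.jt Z.opn _ _)]
  by_cases hp : p ∈ K
  · rw [hg.fderiv_jt Z.opn j m (Z.mem p hp), hg.fderiv_jt Z.opn j m (Z.mem p hp)]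
  · rw [hc.cX Z.cl a p hp, hc.cT Z.cl a p hp]; simp

end Crest.Agent.N250.EC

end
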