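import Crest.Agent.N250.Ch.Lift
import Crest.Agent.N250.Wt.Hol
import Crest.Agent.N250.Wt.AA

/-!
# Row 250 (helper49): differential operators on lifts; bounds and holomorphy in the Floer norm
-/

set_option autoImplicit false
set_option linter.unusedSectionVars false
open Set Filter Topology
open scoped ContDiff NNReal ENNReal ComplexConjugate

noncomputable section

namespace Crest.Agent.N250.EC

open Crest.Agent.N222 hiding E ee
open Crest.GeometryTopology.MCF (E)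
open WS Po

variable {X : Type} [TopologicalSpace X] [MeasurableSpace X]

/-- finite sums of lifted jets of order `≤ k` with coefficients supported in `K` -/
inductive Op (G : Geo X) (Q : E ≃ₗᵢ[ℝ] E) (I : Set ℝ) (K : Set X) (k : ℕ) :
    ((ℝ × ℝ → ℂ) → G.SmC) → Prop
  | one (c : G.SmC) (hc : Sp K c) (j : ℕ) (hj : j ≤ k) (m : Fin j → ℝ × ℝ) :
      Op G Q I K k fun g => lift G Q c (jt j m g)
  | add {T T' : (ℝ × ℝ → ℂ) → G.SmC} : Op G Q I K k T → Op G Q I K k T' →
      Op G Q I K k fun g => T g + T' g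
  | congr {T T' : (ℝ × ℝ → ℂ) → G.SmC} : Op G Q I K k T → (∀ g, Ok I g → T' g = T g) →
      Op G Q I K k T'

variable {G : Geo X} {Q : E ≃ₗᵢ[ℝ] E} {I : Set ℝ} {K : Set X} {k : ℕ}
  {T T' : (ℝ × ℝ → ℂ) → G.SmC} {g g' : ℝ × ℝ → ℂ}

/-- the jets of `g` over `I` are bounded by `b` -/
def JB (I : Set ℝ) (b : ℕ → ℝ) (g : ℝ × ℝ → ℂ) : Prop :=
  ∀ j, ∀ y : ℝ × ℝ, y.1 ∈ I → ‖iteratedFDeriv ℝ j g y‖ ≤ b j


theorem Ok.jb_sub (hI : IsOpen I) (hg : Ok I g) (hg' : Ok I g') {b : ℕ → ℝ}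
    (h : ∀ j, ∀ y : ℝ × ℝ, y.1 ∈ I → ‖iteratedFDeriv ℝ j g y - iteratedFDeriv ℝ j g' y‖ ≤ b j) :
    JB I b fun y => g y - g' y := fun j y hy => by
  rw [show (fun y => g y - g' y) = g - g' from rfl,
    iteratedFDeriv_sub_apply (hg.cdAt' hI hy j) (hg'.cdAt' hI hy j)]
  exact h j y hy



namespace Op

theorem lift {c : G.SmC} (hc : Sp K c) : Op G Q I K k (EC.lift G Q c) :=
  .one c hc 0 k.zero_le Fin.elim0

theorem mono (h : Op G Q I K k T) {k' : ℕ} (hk : k ≤ k') : Op G Q I K k' T := by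
  induction h with
  | one c hc j hj m => exact .one c hc j (hj.trans hk) m
  | add _ _ h h' => exact h.add h'
  | congr _ e h => exact h.congr e

theorem sp (h : Op G Q I K k T) (hg : Ok I g) : Sp K (T g) := by
  induction h with
  | one c hc j hj m => exact (Sp.lift hc) _
  | add _ _ h h' => exact h.add h'
  | congr _ e h => rw [e g hg]; exact h

variable (Z : Zn G Q I K)
include Z

theorem zero : Op G Q I K k fun _ => 0 :=
  (lift sp_zero).congr fun _ hg => G.extC fun p => by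
    rw [Z.lift_apply sp_zero hg]; exact (zero_mul _).symm

theorem mul (h : Op G Q I K k T) (u : G.SmC) : Op G Q I K k fun g => u * T g := by
  induction h with
  | one c hc j hj m =>
    exact (Op.one _ (hc.mul_left u) j hj m).congr fun g hg => Z.mul_lift hc (hg.jt Z.opn j m) u
  | add _ _ h h' => exact (h.add h').congr fun g _ => mul_add _ _ _
  | congr _ e h => exact h.congr fun g hg => by rw [e g hg]

theorem smul (h : Op G Q I K k T) (a : ℂ) : Op G Q I K k fun g => a • T g :=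
  (h.mul Z (algebraMap ℂ G.SmC a)).congr fun _ _ => Algebra.smul_def _ _

theorem neg (h : Op G Q I K k T) : Op G Q I K k fun g => -T g :=
  (h.mul Z (-1)).congr fun _ _ => by ring

theorem sub (h : Op G Q I K k T) (h' : Op G Q I K k T') : Op G Q I K k fun g => T g - T' g :=
  (h.add (h'.neg Z)).congr fun _ _ => sub_eq_add_neg _ _

theorem sum {κ : Type*} (s : Finset κ) {T : κ → (ℝ × ℝ → ℂ) → G.SmC}
    (h : ∀ i ∈ s, Op G Q I K k (T i)) : Op G Q I K k fun g => ∑ i ∈ s, T i g := by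
  classical
  induction s using Finset.induction_on with
  | empty => exact zero Z
  | insert i s hi ih =>
    exact ((h i (Finset.mem_insert_self _ _)).add
      (ih fun j hj => h j (Finset.mem_insert_of_mem hj))).congr fun _ _ => Finset.sum_insert hi

theorem D (h : Op G Q I K k T) (a : Fin 3) : Op G Q I K (k + 1) fun g => G.SC.D a (T g) := by
  induction h with
  | one c hc j hj m =>
    exact (((Op.one _ (hc.D Z.cl a) j (hj.trans k.le_succ) m).add
      (.one _ (hc.cX Z.cl a) (j + 1) (by omega) _)).add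
      (.one _ (hc.cT Z.cl a) (j + 1) (by omega) _)).congr fun g hg => Z.D_lift hc hg a j m
  | add _ _ h h' => exact (h.add h').congr fun g _ => G.dsC.add a _ _
  | congr _ e h => exact h.congr fun g hg => by rw [e g hg]

theorem Dw (h : Op G Q I K k T) (l : List (Fin 3)) :
    Op G Q I K (k + l.length) fun g => G.SC.Dw l (T g) := by
  induction l with
  | nil => exact h
  | cons a l ih => exact ih.D Z a

theorem lap (h : Op G Q I K k T) : Op G Q I K (k + 2) fun g => G.SC.lap (T g) :=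
  sum Z _ fun a _ => (h.D Z a).D Z a

theorem dr (h : Op G Q I K k T) : Op G Q I K (k + 1) fun g => G.SC.dr (T g) :=
  sum Z _ fun a _ => (h.D Z a).mul Z _

theorem Pi (h : Op G Q I K k T) (i : ℕ) : Op G Q I K (k + 1) fun g => G.SC.Pi i (T g) :=
  (h.dr Z).add ((h.mono k.le_succ).mul Z _)

theorem Mi (h : Op G Q I K k T) (i : ℕ) : Op G Q I K (k + 2) fun g => G.SC.Mi i (T g) :=
  (h.lap Z).sub Z (((h.Pi Z i).mono (k + 1).le_succ).mul Z _)

theorem LL (h : Op G Q I K k T) : Op G Q I K (k + 2) fun g => G.SC.LL (T g) :=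
  (h.Mi Z 0).add ((h.mono (by omega)).mul Z _)

/-! ### linearity -/

theorem map_add (h : Op G Q I K k T) (hg : Ok I g) (hg' : Ok I g') :
    T (fun y => g y + g' y) = T g + T g' := by
  induction h with
  | one c hc j hj m =>
    rw [← Z.lift_add hc (hg.jt Z.opn j m) (hg'.jt Z.opn j m)]
    refine Z.lift_congr hc ((hg.add hg').jt Z.opn j m)
      ((hg.jt Z.opn j m).add (hg'.jt Z.opn j m)) fun y hy => ?_
    rw [jt, show (fun y => g y + g' y) = g + g' from rfl,
      iteratedFDeriv_add_apply (hg.cdAt' Z.opn hy j) (hg'.cdAt' Z.opn hy j)]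
    rfl
  | add _ _ h h' => simp only [h, h']; ring
  | congr _ e h => rw [e _ hg, e _ hg', e _ (hg.add hg'), h]

theorem map_smul (h : Op G Q I K k T) (hg : Ok I g) (a : ℂ) :
    T (fun y => a * g y) = a • T g := by
  induction h with
  | one c hc j hj m =>
    rw [← Z.lift_smul hc (hg.jt Z.opn j m)]
    refine Z.lift_congr hc (((Ok.const a).mul hg).jt Z.opn j m)
      ((Ok.const a).mul (hg.jt Z.opn j m)) fun y hy => ?_
    rw [jt, show (fun y => a * g y) = a • g from rfl,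
      iteratedFDeriv_const_smul_apply (hg.cdAt' Z.opn hy j)]
    rfl
  | add _ _ h h' => simp only [h, h', smul_add]
  | congr _ e h => rw [e _ hg, e _ ((Ok.const a).mul hg), h]

theorem map_sub (h : Op G Q I K k T) (hg : Ok I g) (hg' : Ok I g') :
    T (fun y => g y - g' y) = T g - T g' := by
  have := h.map_add Z (hg.sub hg') hg'
  simp only [sub_add_cancel] at this
  exact eq_sub_of_add_eq this.symm

theorem map_zero (h : Op G Q I K k T) : T (fun _ => 0) = 0 := by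
  simpa using h.map_smul Z (Ok.const 0) 0


/-! ### bounds, holomorphy -/

theorem bound (h : Op G Q I K k T) (hK : IsCompact K) : ∃ C : ℝ≥0, ∀ g, Ok I g → ∀ M : ℝ, 0 ≤ M →
    (∀ j ≤ k, ∀ p ∈ K, ‖iteratedFDeriv ℝ j g (cr G Q p)‖ ≤ M) → ∀ p, ‖(T g).1 p‖ ≤ C * M := by
  induction h with
  | one c hc j hj m =>
    obtain ⟨B, hB⟩ := hK.exists_bound_of_continuousOn (G.contC c).continuousOn
    refine ⟨B.toNNReal * ∏ i, ‖m i‖₊, fun g hg M hM hb p => ?_⟩
    by_cases hp : p ∈ K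
    · rw [Z.lift_apply hc (hg.jt Z.opn j m), norm_mul]
      push_cast
      rw [mul_assoc, mul_comm _ M]
      refine mul_le_mul ((hB p hp).trans (Real.le_coe_toNNReal B))
        (((iteratedFDeriv ℝ j g (cr G Q p)).le_opNorm m).trans ?_) (norm_nonneg _) (by positivity)
      gcongr
      exact hb j hj p hp
    · rw [(Sp.lift hc) _ p hp, norm_zero]; positivity
  | add _ _ h h' =>
    obtain ⟨C, h⟩ := h
    obtain ⟨C', h'⟩ := h'
    refine ⟨C + C', fun g hg M hM hb p => ?_⟩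
    push_cast
    rw [add_mul]
    exact norm_add_le_of_le (h g hg M hM hb p) (h' g hg M hM hb p)
  | congr _ e h =>
    obtain ⟨C, h⟩ := h
    exact ⟨C, fun g hg => by rw [e g hg]; exact h g hg⟩

theorem holo {P : Type*} [NormedAddCommGroup P] [NormedSpace ℂ P] (h : Op G Q I K k T)
    {V : Set P} {g : P → ℝ × ℝ → ℂ} (hg : ∀ z ∈ V, Ok I (g z))
    (hd : ∀ j, ∀ y : ℝ × ℝ, y.1 ∈ I → ∀ m,
      DifferentiableOn ℂ (fun z => iteratedFDeriv ℝ j (g z) y m) V) (p : X) :
    DifferentiableOn ℂ (fun z => (T (g z)).1 p) V := by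
  induction h with
  | one c hc j hj m =>
    by_cases hp : p ∈ K
    · exact ((hd j _ (Z.mem p hp) m).const_mul (c.1 p)).congr fun z hz =>
        Z.lift_apply hc ((hg z hz).jt Z.opn j m) p
    · exact (differentiableOn_const 0).congr fun z _ => (Sp.lift hc) _ p hp
  | add _ _ h h' => exact h.add h'
  | congr _ e h => exact h.congr fun z hz => by rw [e _ (hg z hz)]

/-- all weighted words -/
theorem words (h : Op G Q I K k T) (hK : IsCompact K) (b : ℕ → ℝ≥0) : ∃ c : ℕ → ℝ≥0,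
    ∀ g, Ok I g → ∀ t : ℝ≥0, JB I (fun j => t * b j) g → ∀ l p,
      ‖(G.oR G.ρ ^ l.length * G.SC.Dw l (T g)).1 p‖ ≤ t * c l.length := by
  choose C hC using fun l : List (Fin 3) => ((h.Dw Z l).mul Z (G.oR G.ρ ^ l.length)).bound Z hK
  refine ⟨fun n => (∑ v : List.Vector (Fin 3) n, C v.1) * ∑ j ∈ Finset.range (k + n + 1), b j,
    fun g hg t hb l p => ?_⟩
  refine (hC l g hg (t * ∑ j ∈ Finset.range (k + l.length + 1), b j) (by positivity)
    (fun j hj p hp => (hb j _ (Z.mem p hp)).trans ?_) p).trans ?_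
  · push_cast
    refine mul_le_mul_of_nonneg_left ?_ t.coe_nonneg
    exact Finset.single_le_sum (f := fun j => (b j : ℝ)) (fun _ _ => by positivity)
      (Finset.mem_range.2 (by omega))
  · push_cast
    rw [mul_left_comm]
    gcongr
    exact Finset.single_le_sum (f := fun v : List.Vector (Fin 3) l.length => (C v.1 : ℝ))
      (fun _ _ => by positivity) (Finset.mem_univ ⟨l, rfl⟩)


end Op

/-- the weights `ε` are adapted to the operator `T` and the jet bounds `b` -/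
def Fit (I : Set ℝ) (T : (ℝ × ℝ → ℂ) → G.SmC) (b ε : ℕ → ℝ≥0) : Prop := ∃ c : ℕ → ℝ≥0,
  G.Sums c ε ∧ ∀ g, Ok I g → ∀ t : ℝ≥0, JB I (fun j => t * b j) g → ∀ l p,
    ‖(G.oR G.ρ ^ l.length * G.SC.Dw l (T g)).1 p‖ ≤ t * c l.length

variable {b ε : ℕ → ℝ≥0}

theorem Fit.mono (h : Fit I T b ε) {b' : ℕ → ℝ≥0} (hb : ∀ j, b' j ≤ b j) : Fit I T b' ε := by
  obtain ⟨c, hs, h⟩ := h
  exact ⟨c, hs, fun g hg t h' => h g hg t fun j y hy => (h' j y hy).trans
    (mul_le_mul_of_nonneg_left (hb j) t.coe_nonneg)⟩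

theorem Fit.NN_le (h : Fit I T b ε) : ∃ C : ℝ≥0, ∀ g, Ok I g → ∀ t : ℝ≥0,
    JB I (fun j => t * b j) g → G.NN ε (T g) ≤ C * t := by
  obtain ⟨c, ⟨C, hC⟩, h⟩ := h
  exact ⟨C, fun g hg t hb => hC _ t (h g hg t hb)⟩

variable [BorelSpace X]

theorem Op.fit (Z : Zn G Q I K) (h : Op G Q I K k T) (hK : IsCompact K) (b : ℕ → ℝ≥0) :
    ∀ᶠ ε in admF, Fit I T b ε := by
  obtain ⟨c, hc⟩ := h.words Z hK b
  exact (G.sums_ev c).mono fun ε hε => ⟨c, hε, hc⟩

open Classical in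
/-- a smooth function as an element of `AA` (zero if the norm is infinite) -/
def toA (σ : Scale G) (f : G.SmC) : σ.AA := if h : G.NN σ.ε f ≠ ⊤ then σ.el f h else 0

variable {σ : Scale G}

theorem val_toA {f : G.SmC} (h : G.NN σ.ε f ≠ ⊤) : σ.val (toA σ f) = f := by
  rw [toA, dif_pos h]; rfl

theorem Fit.ne_top (h : Fit I T b σ.ε) (hg : Ok I g) {t : ℝ≥0} (hb : JB I (fun j => t * b j) g) :
    G.NN σ.ε (T g) ≠ ⊤ := by
  obtain ⟨C, hC⟩ := h.NN_le
  exact ne_top_of_le_ne_top (ENNReal.mul_ne_top ENNReal.coe_ne_top ENNReal.coe_ne_top) (hC g hg t hb)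

theorem Fit.val (h : Fit I T b σ.ε) (hg : Ok I g) {t : ℝ≥0} (hb : JB I (fun j => t * b j) g) :
    σ.val (toA σ (T g)) = T g := val_toA (h.ne_top hg hb)

/-- the bound in `AA` -/
theorem Fit.norm_le (h : Fit I T b σ.ε) : ∃ C : ℝ, 0 ≤ C ∧ ∀ g, Ok I g → ∀ t : ℝ, 0 ≤ t →
    JB I (fun j => t * b j) g → ∀ F : σ.AA, σ.val F = T g → ‖F‖ ≤ C * t := by
  obtain ⟨C, hC⟩ := h.NN_le
  refine ⟨σ.K * C, by positivity, fun g hg t ht hb F hF => ?_⟩
  lift t to ℝ≥0 using ht
  rw [mul_assoc]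
  refine Scale.norm_le_of_NN (by positivity) ?_
  rw [hF, ← NNReal.coe_mul, ENNReal.ofReal_coe_nnreal, ENNReal.coe_mul]
  exact hC g hg t hb

/-- differences in `AA` -/
theorem Fit.lip (Z : Zn G Q I K) (hT : Op G Q I K k T) (h : Fit I T b σ.ε) : ∃ C : ℝ, 0 ≤ C ∧
    ∀ g g', Ok I g → Ok I g' → ∀ t : ℝ, 0 ≤ t → (∀ j, ∀ y : ℝ × ℝ, y.1 ∈ I →
      ‖iteratedFDeriv ℝ j g y - iteratedFDeriv ℝ j g' y‖ ≤ t * b j) →
    ∀ F F' : σ.AA, σ.val F = T g → σ.val F' = T g' → ‖F - F'‖ ≤ C * t := by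
  obtain ⟨C, h0, hC⟩ := h.norm_le
  exact ⟨C, h0, fun g g' hg hg' t ht hb F F' hF hF' => hC _ (hg.sub hg') t ht
    (hg.jb_sub Z.opn hg' hb) _ (by rw [map_sub, hF, hF', hT.map_sub Z hg hg'])⟩

/-- holomorphy in `AA` -/
theorem Fit.holo (Z : Zn G Q I K) (hT : Op G Q I K k T) (h : Fit I T b σ.ε) {P : Type*}
    [NormedAddCommGroup P] [NormedSpace ℂ P] {V : Set P} (hV : IsOpen V) {g : P → ℝ × ℝ → ℂ}
    (hg : ∀ z ∈ V, Ok I (g z)) {t : ℝ≥0} (hb : ∀ z ∈ V, JB I (fun j => t * b j) (g z))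
    (hd : ∀ j, ∀ y : ℝ × ℝ, y.1 ∈ I → ∀ m,
      DifferentiableOn ℂ (fun z => iteratedFDeriv ℝ j (g z) y m) V) :
    DifferentiableOn ℂ (fun z => toA σ (T (g z))) V := by
  have hv := fun z hz => h.val (hg z hz) (hb z hz)
  obtain ⟨c, hs, h⟩ := h
  refine hs.diffOn_words σ.val.toLinearMap (K := σ.K) (fun v => (Scale.enorm_def v).le) hV (B := t)
    (fun z hz l p => ?_) fun l p => ?_
  · rw [AlgHom.toLinearMap_apply, hv z hz]
    exact h _ (hg z hz) t (hb z hz) l p
  · exact ((hT.Dw Z l).holo Z hg hd p).congr fun z hz => by rw [AlgHom.toLinearMap_apply, hv z hz]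

/-- linear families of strip functions give bounded linear maps into `AA` -/
theorem Fit.clm (Z : Zn G Q I K) (hT : Op G Q I K k T) (h : Fit I T b σ.ε) {P : Type*}
    [NormedAddCommGroup P] [NormedSpace ℂ P] (g : P →ₗ[ℂ] (ℝ × ℝ → ℂ)) (hg : ∀ z, Ok I (g z))
    {t : ℝ≥0} (hb : ∀ z, JB I (fun j => t * ‖z‖ * b j) (g z)) :
    ∃ A : P →L[ℂ] σ.AA, ∀ z, σ.val (A z) = T (g z) := by
  obtain ⟨C, hC⟩ := h.NN_le
  let L : P →ₗ[ℂ] G.SmC :=
    { toFun := fun z => T (g z)
      map_add' := fun z w => by rw [map_add]; exact hT.map_add Z (hg z) (hg w)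
      map_smul' := fun a z => by rw [map_smul]; exact hT.map_smul Z (hg z) a }
  obtain ⟨A, hA, -⟩ := σ.exists_clm L (C * t) fun z => by
    have := hC _ (hg z) (t * ‖z‖₊) (hb z)
    rwa [ENNReal.coe_mul, ← mul_assoc, ← ENNReal.coe_mul] at this
  exact ⟨A, hA⟩

end Crest.Agent.N250.EC

end
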